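import Mathlib

/-!
Norm bounds for powers of a real symmetric matrix in terms of `T₄ = tr Z⁴`.

`bt Z = (tr Z⁴)^(1/4)` is an upper bound of the operator norm (`mulVec_sq_le`), and all entries,
diagonals, traces and Frobenius norms of `Z^(j+2)` are bounded by `bt Z ^ j` times the corresponding
quantity with exponent two.
-/

set_option linter.unusedSectionVars false

namespace Vale.Agent.P049.TS

open Matrix Finset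

variable {ι : Type*} [Fintype ι] [DecidableEq ι]

/-- `T₄^(1/4)` -/
noncomputable def bt (Z : Matrix ι ι ℝ) : ℝ := √√((Z ^ 4).trace)

/-- squared Frobenius norm -/
def frob (Z : Matrix ι ι ℝ) : ℝ := ∑ i, ∑ j, Z i j ^ 2

theorem frob_nonneg (Z : Matrix ι ι ℝ) : 0 ≤ frob Z :=
  Finset.sum_nonneg fun _ _ => Finset.sum_nonneg fun _ _ => sq_nonneg _

variable {Z : Matrix ι ι ℝ}

theorem symm_pow (hZ : Z.IsSymm) (k : ℕ) : (Z ^ k).IsSymm := by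
  unfold Matrix.IsSymm
  rw [Matrix.transpose_pow, hZ.eq]

theorem frob_eq_trace (hZ : Z.IsSymm) : frob Z = (Z ^ 2).trace := by
  unfold frob Matrix.trace
  refine Finset.sum_congr rfl fun i _ => ?_
  rw [Matrix.diag_apply, sq Z, Matrix.mul_apply]
  refine Finset.sum_congr rfl fun j _ => ?_
  rw [sq, hZ.apply i j]

theorem frob_pow (hZ : Z.IsSymm) (k : ℕ) : frob (Z ^ k) = (Z ^ (2 * k)).trace := by
  rw [frob_eq_trace (symm_pow hZ k), ← pow_mul, mul_comm]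

theorem trace_even_nonneg (hZ : Z.IsSymm) (k : ℕ) : 0 ≤ (Z ^ (2 * k)).trace := by
  rw [← frob_pow hZ]; exact frob_nonneg _

theorem trace_four_nonneg (hZ : Z.IsSymm) : 0 ≤ (Z ^ 4).trace := trace_even_nonneg hZ 2

theorem trace_two_nonneg (hZ : Z.IsSymm) : 0 ≤ (Z ^ 2).trace := trace_even_nonneg hZ 1

theorem bt_nonneg (Z : Matrix ι ι ℝ) : 0 ≤ bt Z := Real.sqrt_nonneg _

theorem bt_sq (Z : Matrix ι ι ℝ) : bt Z ^ 2 = √((Z ^ 4).trace) :=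
  Real.sq_sqrt (Real.sqrt_nonneg _)

theorem bt_four (hZ : Z.IsSymm) : bt Z ^ 4 = (Z ^ 4).trace := by
  rw [show bt Z ^ 4 = (bt Z ^ 2) ^ 2 by ring, bt_sq, Real.sq_sqrt (trace_four_nonneg hZ)]

/-- Cauchy-Schwarz for `dotProduct` -/
theorem dot_sq_le (x y : ι → ℝ) : (x ⬝ᵥ y) ^ 2 ≤ (x ⬝ᵥ x) * (y ⬝ᵥ y) := by
  have := Finset.sum_mul_sq_le_sq_mul_sq Finset.univ x y
  simpa [dotProduct, sq] using this

theorem dot_self_nonneg (x : ι → ℝ) : 0 ≤ x ⬝ᵥ x :=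
  Finset.sum_nonneg fun _ _ => mul_self_nonneg _

theorem abs_dot_le (x y : ι → ℝ) : |x ⬝ᵥ y| ≤ √(x ⬝ᵥ x) * √(y ⬝ᵥ y) := by
  rw [← Real.sqrt_mul (dot_self_nonneg x)]
  exact Real.abs_le_sqrt (dot_sq_le x y)

/-- `|A x|² ≤ ‖A‖_F² |x|²` -/
theorem mulVec_frob_le (A : Matrix ι ι ℝ) (x : ι → ℝ) :
    (A *ᵥ x) ⬝ᵥ (A *ᵥ x) ≤ frob A * (x ⬝ᵥ x) := by
  unfold frob
  rw [dotProduct, Finset.sum_mul]
  refine Finset.sum_le_sum fun i _ => ?_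
  rw [← sq]
  have := Finset.sum_mul_sq_le_sq_mul_sq Finset.univ (A i) x
  simpa [Matrix.mulVec, dotProduct, sq] using this

theorem dot_mulVec_symm (hZ : Z.IsSymm) (x y : ι → ℝ) : x ⬝ᵥ (Z *ᵥ y) = (Z *ᵥ x) ⬝ᵥ y := by
  rw [Matrix.dotProduct_mulVec, ← Matrix.mulVec_transpose, hZ.eq]

/-- `|Z x|² ≤ β² |x|²` -/
theorem mulVec_sq_le (hZ : Z.IsSymm) (x : ι → ℝ) :
    (Z *ᵥ x) ⬝ᵥ (Z *ᵥ x) ≤ bt Z ^ 2 * (x ⬝ᵥ x) := by
  have h1 : (Z *ᵥ x) ⬝ᵥ (Z *ᵥ x) = x ⬝ᵥ ((Z ^ 2) *ᵥ x) := by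
    rw [← dot_mulVec_symm hZ, Matrix.mulVec_mulVec, sq]
  rw [h1]
  refine (le_abs_self _).trans ((abs_dot_le _ _).trans ?_)
  have h2 := mulVec_frob_le (Z ^ 2) x
  rw [frob_pow hZ] at h2
  have h3 : √(((Z ^ 2) *ᵥ x) ⬝ᵥ ((Z ^ 2) *ᵥ x)) ≤ √((Z ^ 4).trace) * √(x ⬝ᵥ x) := by
    rw [← Real.sqrt_mul (trace_four_nonneg hZ)]
    exact Real.sqrt_le_sqrt h2
  calc √(x ⬝ᵥ x) * √(((Z ^ 2) *ᵥ x) ⬝ᵥ ((Z ^ 2) *ᵥ x))
      ≤ √(x ⬝ᵥ x) * (√((Z ^ 4).trace) * √(x ⬝ᵥ x)) :=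
        mul_le_mul_of_nonneg_left h3 (Real.sqrt_nonneg _)
    _ = √((Z ^ 4).trace) * (√(x ⬝ᵥ x) * √(x ⬝ᵥ x)) := by ring
    _ = bt Z ^ 2 * (x ⬝ᵥ x) := by rw [Real.mul_self_sqrt (dot_self_nonneg x), bt_sq]

theorem mulVec_pow_sq_le (hZ : Z.IsSymm) (k : ℕ) (x : ι → ℝ) :
    ((Z ^ k) *ᵥ x) ⬝ᵥ ((Z ^ k) *ᵥ x) ≤ bt Z ^ (2 * k) * (x ⬝ᵥ x) := by
  induction k with
  | zero => simp
  | succ k ih =>
    rw [pow_succ', ← Matrix.mulVec_mulVec]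
    refine (mulVec_sq_le hZ _).trans ?_
    calc bt Z ^ 2 * (((Z ^ k) *ᵥ x) ⬝ᵥ ((Z ^ k) *ᵥ x))
        ≤ bt Z ^ 2 * (bt Z ^ (2 * k) * (x ⬝ᵥ x)) :=
          mul_le_mul_of_nonneg_left ih (by positivity)
      _ = bt Z ^ (2 * (k + 1)) * (x ⬝ᵥ x) := by ring

/-- bilinear bound: `|x' Z^k y| ≤ β^k |x| |y|` -/
theorem abs_bilin_le (hZ : Z.IsSymm) (k : ℕ) (x y : ι → ℝ) :
    |x ⬝ᵥ ((Z ^ k) *ᵥ y)| ≤ bt Z ^ k * (√(x ⬝ᵥ x) * √(y ⬝ᵥ y)) := by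
  refine (abs_dot_le _ _).trans ?_
  have h := Real.sqrt_le_sqrt (mulVec_pow_sq_le hZ k y)
  rw [Real.sqrt_mul (by have := bt_nonneg Z; positivity), show bt Z ^ (2 * k) = (bt Z ^ k) ^ 2 by ring,
    Real.sqrt_sq (pow_nonneg (bt_nonneg Z) k)] at h
  calc √(x ⬝ᵥ x) * √(((Z ^ k) *ᵥ y) ⬝ᵥ ((Z ^ k) *ᵥ y))
      ≤ √(x ⬝ᵥ x) * (bt Z ^ k * √(y ⬝ᵥ y)) := mul_le_mul_of_nonneg_left h (Real.sqrt_nonneg _)
    _ = _ := by ring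

/-- `‖Z^k A‖_F² ≤ β^{2k} ‖A‖_F²` -/
theorem frob_pow_mul_le (hZ : Z.IsSymm) (k : ℕ) (A : Matrix ι ι ℝ) :
    frob (Z ^ k * A) ≤ bt Z ^ (2 * k) * frob A := by
  unfold frob
  rw [Finset.sum_comm, Finset.sum_comm (f := fun i j => A i j ^ 2), Finset.mul_sum]
  refine Finset.sum_le_sum fun j _ => ?_
  have := mulVec_pow_sq_le hZ k (fun i => A i j)
  simpa [dotProduct, Matrix.mulVec, Matrix.mul_apply, sq] using this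

theorem frob_transpose (A : Matrix ι ι ℝ) : frob Aᵀ = frob A := by
  unfold frob
  rw [Finset.sum_comm]; rfl

/-- `T_{2(k+2)} ≤ β^{2(k+2)}` -/
theorem trace_even_le (hZ : Z.IsSymm) (k : ℕ) :
    (Z ^ (2 * (k + 2))).trace ≤ bt Z ^ (2 * (k + 2)) := by
  rw [← frob_pow hZ, pow_add Z k 2]
  refine (frob_pow_mul_le hZ k _).trans ?_
  rw [frob_pow hZ, show 2 * 2 = 4 from rfl, ← bt_four hZ]
  exact le_of_eq (by ring)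

/-- Cauchy-Schwarz for traces: `|tr (A Bᵀ)| ≤ ‖A‖_F ‖B‖_F` -/
theorem abs_trace_mul_transpose_le (A B : Matrix ι ι ℝ) :
    |(A * Bᵀ).trace| ≤ √(frob A) * √(frob B) := by
  rw [← Real.sqrt_mul (frob_nonneg A)]
  refine Real.abs_le_sqrt ?_
  have h : (A * Bᵀ).trace = ∑ p : ι × ι, A p.1 p.2 * B p.1 p.2 := by
    rw [Fintype.sum_prod_type]
    simp [Matrix.trace, Matrix.mul_apply]
  have hA : frob A = ∑ p : ι × ι, A p.1 p.2 ^ 2 := by rw [Fintype.sum_prod_type]; rfl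
  have hB : frob B = ∑ p : ι × ι, B p.1 p.2 ^ 2 := by rw [Fintype.sum_prod_type]; rfl
  rw [h, hA, hB]
  exact Finset.sum_mul_sq_le_sq_mul_sq _ _ _

/-- `|t_{j+k}| ≤ ‖Z^j‖_F ‖Z^k‖_F` -/
theorem abs_trace_pow_add_le (hZ : Z.IsSymm) (j k : ℕ) :
    |(Z ^ (j + k)).trace| ≤ √((Z ^ (2 * j)).trace) * √((Z ^ (2 * k)).trace) := by
  have h := abs_trace_mul_transpose_le (Z ^ j) (Z ^ k)
  rw [frob_pow hZ, frob_pow hZ, (symm_pow hZ k).eq, ← pow_add] at h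
  exact h

theorem sqrt_trace_even_le (hZ : Z.IsSymm) (k : ℕ) :
    √((Z ^ (2 * (k + 2))).trace) ≤ bt Z ^ (k + 2) := by
  refine (Real.sqrt_le_sqrt (trace_even_le hZ k)).trans ?_
  rw [show bt Z ^ (2 * (k + 2)) = (bt Z ^ (k + 2)) ^ 2 by ring,
    Real.sqrt_sq (pow_nonneg (bt_nonneg Z) _)]

/-- `|t_3| ≤ √T₂ β²` -/
theorem abs_trace_three_le (hZ : Z.IsSymm) :
    |(Z ^ 3).trace| ≤ √((Z ^ 2).trace) * bt Z ^ 2 := by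
  have h := abs_trace_pow_add_le hZ 1 2
  exact h.trans (mul_le_mul_of_nonneg_left (sqrt_trace_even_le hZ 0) (Real.sqrt_nonneg _))

/-- `|t_{j+4}| ≤ β^{j+4}` -/
theorem abs_trace_ge_four_le (hZ : Z.IsSymm) (j : ℕ) :
    |(Z ^ (j + 4)).trace| ≤ bt Z ^ (j + 4) := by
  have h := abs_trace_pow_add_le hZ (j + 2) 2
  have e : j + 2 + 2 = j + 4 := by ring
  rw [e] at h
  refine h.trans ?_
  calc √((Z ^ (2 * (j + 2))).trace) * √((Z ^ (2 * 2)).trace)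
      ≤ bt Z ^ (j + 2) * bt Z ^ 2 := by
        refine mul_le_mul (sqrt_trace_even_le hZ j) (sqrt_trace_even_le hZ 0)
          (Real.sqrt_nonneg _) (pow_nonneg (bt_nonneg Z) _)
    _ = bt Z ^ (j + 4) := by ring

/-! ### Entries -/

/-- row norms `w_a = (Z²)_aa` -/
theorem sq_diag_eq (hZ : Z.IsSymm) (a : ι) : (Z ^ 2) a a = ∑ j, Z a j ^ 2 := by
  rw [sq Z, Matrix.mul_apply]
  refine Finset.sum_congr rfl fun j _ => ?_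
  rw [sq, hZ.apply a j]

theorem sq_diag_nonneg (hZ : Z.IsSymm) (a : ι) : 0 ≤ (Z ^ 2) a a := by
  rw [sq_diag_eq hZ]; exact Finset.sum_nonneg fun _ _ => sq_nonneg _

theorem sq_entry_le (hZ : Z.IsSymm) (a b : ι) : Z a b ^ 2 ≤ (Z ^ 2) a a := by
  rw [sq_diag_eq hZ]
  exact Finset.single_le_sum (f := fun j => Z a j ^ 2) (fun _ _ => sq_nonneg _) (Finset.mem_univ b)

theorem abs_entry_le (hZ : Z.IsSymm) (a b : ι) : |Z a b| ≤ √((Z ^ 2) a a) :=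
  Real.abs_le_sqrt (sq_entry_le hZ a b)

theorem row_dot (hZ : Z.IsSymm) (a : ι) : (fun i => Z i a) ⬝ᵥ (fun i => Z i a) = (Z ^ 2) a a := by
  rw [sq_diag_eq hZ]
  simp only [dotProduct]
  refine Finset.sum_congr rfl fun j _ => ?_
  rw [← sq, hZ.apply a j]

/-- `(Z^{j+2})_ab = z_a' Z^j z_b` -/
theorem pow_entry_eq (hZ : Z.IsSymm) (j : ℕ) (a b : ι) :
    (Z ^ (j + 2)) a b = (fun i => Z i a) ⬝ᵥ ((Z ^ j) *ᵥ (fun i => Z i b)) := by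
  have e : Z ^ (j + 2) = Z * Z ^ j * Z := by rw [← pow_succ', ← pow_succ]
  rw [e, Matrix.mul_assoc, Matrix.mul_apply]
  simp only [dotProduct, Matrix.mulVec, Matrix.mul_apply]
  refine Finset.sum_congr rfl fun i _ => ?_
  rw [hZ.apply i a]

/-- `|(Z^{j+2})_ab| ≤ β^j √(w_a w_b)` -/
theorem abs_pow_entry_le (hZ : Z.IsSymm) (j : ℕ) (a b : ι) :
    |(Z ^ (j + 2)) a b| ≤ bt Z ^ j * (√((Z ^ 2) a a) * √((Z ^ 2) b b)) := by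
  rw [pow_entry_eq hZ]
  refine (abs_bilin_le hZ j _ _).trans ?_
  rw [row_dot hZ, row_dot hZ]

/-- `|(Z^{j+2})_aa| ≤ β^j w_a` -/
theorem abs_pow_diag_le (hZ : Z.IsSymm) (j : ℕ) (a : ι) :
    |(Z ^ (j + 2)) a a| ≤ bt Z ^ j * (Z ^ 2) a a := by
  have := abs_pow_entry_le hZ j a a
  rwa [Real.mul_self_sqrt (sq_diag_nonneg hZ a)] at this

/-- alignment: `|x' Z^{j+2} x| ≤ β^j |Z x|²` -/
theorem abs_quad_pow_le (hZ : Z.IsSymm) (j : ℕ) (x : ι → ℝ) :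
    |x ⬝ᵥ ((Z ^ (j + 2)) *ᵥ x)| ≤ bt Z ^ j * ((Z *ᵥ x) ⬝ᵥ (Z *ᵥ x)) := by
  have e : x ⬝ᵥ ((Z ^ (j + 2)) *ᵥ x) = (Z *ᵥ x) ⬝ᵥ ((Z ^ j) *ᵥ (Z *ᵥ x)) := by
    have e2 : Z ^ (j + 2) = Z * (Z ^ j * Z) := by rw [← pow_succ, ← pow_succ']
    rw [← dot_mulVec_symm hZ, Matrix.mulVec_mulVec, Matrix.mulVec_mulVec, e2, Matrix.mul_assoc]
  rw [e]
  refine (abs_bilin_le hZ j _ _).trans ?_
  rw [Real.mul_self_sqrt (dot_self_nonneg _)]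

end Vale.Agent.P049.TS
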