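import Vale.Agent.P049.TS.Shell.Join4
import Vale.Agent.P049.TS.Avg.Spec

/-!
Admissible pairs, their denominators, the number of non-admissible pairs, and averages.

`adm F forb Zp Zm` is the set of ordered pairs of free stubs which are distinct, not forbidden, and
satisfy `|Z_ab| ≤ 1/8`, `|Z_aa Z_bb| ≤ 1/8` for both matrices. Its complement in `F ×ˢ F` is sparse.
-/

set_option linter.unusedSectionVars false

namespace Vale.Agent.P049.TS

open Matrix Finset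

variable {ι : Type*} [Fintype ι] [DecidableEq ι]

/-! ### Denominators -/

/-- the pair condition for one matrix -/
def PairOK (Z : Matrix ι ι ℝ) (a b : ι) : Prop := |Z a b| ≤ 1 / 8 ∧ |Z a a * Z b b| ≤ 1 / 8

variable {Z : Matrix ι ι ℝ} {a b : ι}

theorem PairOK.al_ge (h : PairOK Z a b) : 5 / 8 ≤ al Z a b := by
  obtain ⟨h1, h2⟩ := h
  have h3 := abs_le.1 h1
  have h4 := abs_le.1 h2
  unfold al
  nlinarith [sq_nonneg (Z a b)]

theorem PairOK.al_pos (h : PairOK Z a b) : 0 < al Z a b := lt_of_lt_of_le (by norm_num) h.al_ge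

theorem PairOK.al_ne (h : PairOK Z a b) : al Z a b ≠ 0 := h.al_pos.ne'

/-- `|1/al - 1| ≤ 4 (|z| + |pq|)` -/
theorem PairOK.abs_inv_sub_one (h : PairOK Z a b) :
    |(al Z a b)⁻¹ - 1| ≤ 4 * (|Z a b| + |Z a a * Z b b|) := by
  have hp := h.al_pos
  have hg := h.al_ge
  have e : (al Z a b)⁻¹ - 1 = (1 - al Z a b) / al Z a b := by field_simp
  rw [e, abs_div, abs_of_pos hp, div_le_iff₀ hp]
  have h1 : |1 - al Z a b| ≤ 17 / 8 * |Z a b| + |Z a a * Z b b| := by
    have e1 : 1 - al Z a b = Z a b * (2 - Z a b) + Z a a * Z b b := by unfold al; ring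
    rw [e1]
    refine (abs_add_le _ _).trans (add_le_add ?_ le_rfl)
    rw [abs_mul, mul_comm]
    refine mul_le_mul_of_nonneg_right ?_ (abs_nonneg _)
    have := abs_le.1 h.1
    rw [abs_le]; constructor <;> linarith [this.1, this.2]
  refine h1.trans ?_
  have a1 := abs_nonneg (Z a b)
  have a2 := abs_nonneg (Z a a * Z b b)
  nlinarith

/-- `|(1-z)/al - 1| ≤ 2 (|z| + |pq|)` -/
theorem PairOK.abs_off_sub_one (h : PairOK Z a b) :
    |(al Z a b)⁻¹ * (1 - Z a b) - 1| ≤ 2 * (|Z a b| + |Z a a * Z b b|) := by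
  have hp := h.al_pos
  have hg := h.al_ge
  have e : (al Z a b)⁻¹ * (1 - Z a b) - 1 = (1 - Z a b - al Z a b) / al Z a b := by field_simp
  rw [e, abs_div, abs_of_pos hp, div_le_iff₀ hp]
  have h1 : |1 - Z a b - al Z a b| ≤ 9 / 8 * |Z a b| + |Z a a * Z b b| := by
    have e1 : 1 - Z a b - al Z a b = Z a b * (1 - Z a b) + Z a a * Z b b := by unfold al; ring
    rw [e1]
    refine (abs_add_le _ _).trans (add_le_add ?_ le_rfl)
    rw [abs_mul, mul_comm]
    refine mul_le_mul_of_nonneg_right ?_ (abs_nonneg _)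
    have := abs_le.1 h.1
    rw [abs_le]; constructor <;> linarith [this.1, this.2]
  refine h1.trans ?_
  have a1 := abs_nonneg (Z a b)
  have a2 := abs_nonneg (Z a a * Z b b)
  nlinarith

theorem PairOK.inv_le (h : PairOK Z a b) : (al Z a b)⁻¹ ≤ 8 / 5 := by
  rw [inv_le_comm₀ h.al_pos (by norm_num)]
  exact le_trans (by norm_num) h.al_ge

/-- the off-diagonal entry of `(P - Z₂)⁻¹` -/
theorem PairOK.abs_off_le (h : PairOK Z a b) : |(al Z a b)⁻¹ * (1 - Z a b)| ≤ 9 / 5 := by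
  rw [abs_mul, abs_of_pos (inv_pos.2 h.al_pos)]
  have := abs_le.1 h.1
  have h2 : |1 - Z a b| ≤ 9 / 8 := by rw [abs_le]; constructor <;> linarith [this.1, this.2]
  calc (al Z a b)⁻¹ * |1 - Z a b| ≤ 8 / 5 * (9 / 8) :=
        mul_le_mul h.inv_le h2 (abs_nonneg _) (by norm_num)
    _ = 9 / 5 := by norm_num

/-! ### Sums over pairs -/

/-- `Σ_{a,b ∈ F} f a * g b` -/
theorem sum_pairs_mul (F : Finset ι) (f g : ι → ℝ) :
    ∑ p ∈ F ×ˢ F, f p.1 * g p.2 = (∑ a ∈ F, f a) * ∑ b ∈ F, g b := by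
  rw [Finset.sum_product, Finset.sum_mul_sum]

/-- Cauchy-Schwarz for sums of products of absolute values over pairs -/
theorem sum_abs_mul_le {α : Type*} (A : Finset α) (f g : α → ℝ) :
    ∑ p ∈ A, |f p| * |g p| ≤ √(∑ p ∈ A, f p ^ 2) * √(∑ p ∈ A, g p ^ 2) := by
  rw [← Real.sqrt_mul (Finset.sum_nonneg fun _ _ => sq_nonneg _)]
  refine Real.le_sqrt_of_sq_le ?_
  have := Finset.sum_mul_sq_le_sq_mul_sq A (fun p => |f p|) (fun p => |g p|)
  simpa only [sq_abs] using this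

/-- `Σ |f| ≤ √#A √Σ f²` -/
theorem sum_abs_le_sqrt_card {α : Type*} (A : Finset α) (f : α → ℝ) :
    ∑ p ∈ A, |f p| ≤ √(A.card : ℝ) * √(∑ p ∈ A, f p ^ 2) := by
  have := sum_abs_mul_le A (fun _ => (1 : ℝ)) f
  simpa using this

/-- the `ℓ²` norm of a product array -/
theorem sum_pairs_sq_mul (F : Finset ι) (f g : ι → ℝ) :
    ∑ p ∈ F ×ˢ F, (f p.1 * g p.2) ^ 2 = (∑ a ∈ F, f a ^ 2) * ∑ b ∈ F, g b ^ 2 := by
  rw [← sum_pairs_mul]
  exact Finset.sum_congr rfl fun p _ => by ring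

/-- replacing the full sum by the sum over a subset -/
theorem abs_sum_sub_sum_le {α : Type*} [DecidableEq α] {A U : Finset α} (h : A ⊆ U) (f : α → ℝ) :
    |∑ p ∈ A, f p - ∑ p ∈ U, f p| ≤ √((U \ A).card : ℝ) * √(∑ p ∈ U, f p ^ 2) := by
  have e : ∑ p ∈ A, f p - ∑ p ∈ U, f p = -∑ p ∈ U \ A, f p := by
    rw [← Finset.sum_sdiff h]; ring
  rw [e, abs_neg]
  refine (Finset.abs_sum_le_sum_abs _ _).trans ((sum_abs_le_sqrt_card _ _).trans ?_)
  refine mul_le_mul_of_nonneg_left (Real.sqrt_le_sqrt ?_) (Real.sqrt_nonneg _)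
  exact Finset.sum_le_sum_of_subset_of_nonneg Finset.sdiff_subset fun _ _ _ => sq_nonneg _

/-! ### Admissible pairs -/

open Classical in
/-- the ordered admissible pairs -/
noncomputable def adm (F : Finset ι) (forb : ι → ι → Prop) (Zp Zm : Matrix ι ι ℝ) :
    Finset (ι × ι) :=
  (F ×ˢ F).filter fun p => p.1 ≠ p.2 ∧ ¬ forb p.1 p.2 ∧ PairOK Zp p.1 p.2 ∧ PairOK Zm p.1 p.2

theorem mem_adm {F : Finset ι} {forb : ι → ι → Prop} {Zp Zm : Matrix ι ι ℝ} {p : ι × ι} :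
    p ∈ adm F forb Zp Zm ↔ (p.1 ∈ F ∧ p.2 ∈ F) ∧ p.1 ≠ p.2 ∧ ¬ forb p.1 p.2 ∧
      PairOK Zp p.1 p.2 ∧ PairOK Zm p.1 p.2 := by
  classical
  simp only [adm, Finset.mem_filter, Finset.mem_product]

theorem adm_subset (F : Finset ι) (forb : ι → ι → Prop) (Zp Zm : Matrix ι ι ℝ) :
    adm F forb Zp Zm ⊆ F ×ˢ F := by
  classical
  exact Finset.filter_subset _ _

/-- `Σ Z_aa²` -/
def Sd (F : Finset ι) (Z : Matrix ι ι ℝ) : ℝ := ∑ a ∈ F, Z a a ^ 2

theorem Sd_nonneg (F : Finset ι) (Z : Matrix ι ι ℝ) : 0 ≤ Sd F Z :=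
  Finset.sum_nonneg fun _ _ => sq_nonneg _

theorem sum_pairs_sq_le_frob (F : Finset ι) (Z : Matrix ι ι ℝ) :
    ∑ p ∈ F ×ˢ F, Z p.1 p.2 ^ 2 ≤ frob Z := by
  rw [Finset.sum_product]
  unfold frob
  refine (Finset.sum_le_sum fun a _ => ?_).trans
    (Finset.sum_le_sum_of_subset_of_nonneg (Finset.subset_univ F) fun a _ _ =>
      Finset.sum_nonneg fun _ _ => sq_nonneg _)
  exact Finset.sum_le_sum_of_subset_of_nonneg (Finset.subset_univ F) fun _ _ _ => sq_nonneg _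

/-- the ordered pairs violating the pair condition -/
theorem card_not_pairOK_le (F : Finset ι) (Z : Matrix ι ι ℝ)
    [DecidablePred fun p : ι × ι => ¬ PairOK Z p.1 p.2] :
    (((F ×ˢ F).filter fun p => ¬ PairOK Z p.1 p.2).card : ℝ) ≤ 64 * frob Z + 64 * Sd F Z ^ 2 := by
  have h1 : (((F ×ˢ F).filter fun p => ¬ PairOK Z p.1 p.2).card : ℝ) ≤
      ∑ p ∈ F ×ˢ F, (64 * Z p.1 p.2 ^ 2 + 64 * (Z p.1 p.1 * Z p.2 p.2) ^ 2) := by
    rw [Finset.card_eq_sum_ones, Nat.cast_sum, Finset.sum_filter]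
    refine Finset.sum_le_sum fun p _ => ?_
    by_cases h : PairOK Z p.1 p.2
    · rw [if_neg (not_not.2 h)]
      positivity
    · rw [if_pos h]
      unfold PairOK at h
      rw [not_and_or, not_le, not_le] at h
      push_cast
      rcases h with h | h
      · have : (1 / 8 : ℝ) ^ 2 ≤ |Z p.1 p.2| ^ 2 := pow_le_pow_left₀ (by norm_num) h.le 2
        rw [sq_abs] at this
        nlinarith [sq_nonneg (Z p.1 p.1 * Z p.2 p.2)]
      · have : (1 / 8 : ℝ) ^ 2 ≤ |Z p.1 p.1 * Z p.2 p.2| ^ 2 :=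
          pow_le_pow_left₀ (by norm_num) h.le 2
        rw [sq_abs] at this
        nlinarith [sq_nonneg (Z p.1 p.2)]
  refine h1.trans ?_
  rw [Finset.sum_add_distrib, ← Finset.mul_sum, ← Finset.mul_sum]
  have h2 : ∑ p ∈ F ×ˢ F, (Z p.1 p.1 * Z p.2 p.2) ^ 2 = Sd F Z ^ 2 := by
    rw [sum_pairs_sq_mul F (fun a => Z a a) (fun a => Z a a), sq (Sd F Z)]; rfl
  rw [h2]
  have := sum_pairs_sq_le_frob F Z
  linarith

/-- the number of non-admissible ordered pairs -/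
theorem card_compl_adm_le {F : Finset ι} {forb : ι → ι → Prop} {Zp Zm : Matrix ι ι ℝ} {Δ : ℝ}
    [∀ a, DecidablePred fun b => forb a b]
    (hforb : ∀ a ∈ F, ((F.filter fun b => forb a b).card : ℝ) ≤ Δ) :
    ((((F ×ˢ F) \ adm F forb Zp Zm).card : ℕ) : ℝ) ≤
      (1 + Δ) * F.card + 64 * (frob Zp + Sd F Zp ^ 2) + 64 * (frob Zm + Sd F Zm ^ 2) := by
  classical
  have hsub : (F ×ˢ F) \ adm F forb Zp Zm ⊆
      (((F ×ˢ F).filter fun p => p.1 = p.2) ∪ ((F ×ˢ F).filter fun p => forb p.1 p.2)) ∪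
      (((F ×ˢ F).filter fun p => ¬ PairOK Zp p.1 p.2) ∪
        ((F ×ˢ F).filter fun p => ¬ PairOK Zm p.1 p.2)) := by
    intro p hp
    rw [Finset.mem_sdiff, mem_adm] at hp
    simp only [Finset.mem_union, Finset.mem_filter]
    have h1 := hp.1
    have h2 := Finset.mem_product.1 h1
    tauto
  have h1 := Finset.card_le_card hsub
  have h2 := Finset.card_union_le
    (((F ×ˢ F).filter fun p => p.1 = p.2) ∪ ((F ×ˢ F).filter fun p => forb p.1 p.2))
    (((F ×ˢ F).filter fun p => ¬ PairOK Zp p.1 p.2) ∪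
        ((F ×ˢ F).filter fun p => ¬ PairOK Zm p.1 p.2))
  have h3 := Finset.card_union_le ((F ×ˢ F).filter fun p => p.1 = p.2)
    ((F ×ˢ F).filter fun p => forb p.1 p.2)
  have h4 := Finset.card_union_le ((F ×ˢ F).filter fun p => ¬ PairOK Zp p.1 p.2)
    ((F ×ˢ F).filter fun p => ¬ PairOK Zm p.1 p.2)
  have h5 : ((F ×ˢ F).filter fun p => p.1 = p.2).card = F.card := by
    refine Finset.card_bij (fun p _ => p.1) (fun p hp => ?_) (fun p hp q hq h => ?_) fun a ha => ?_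
    · exact (Finset.mem_product.1 (Finset.mem_filter.1 hp).1).1
    · have e1 := (Finset.mem_filter.1 hp).2
      have e2 := (Finset.mem_filter.1 hq).2
      exact Prod.ext h (by rw [← e1, ← e2]; exact h)
    · exact ⟨(a, a), Finset.mem_filter.2 ⟨Finset.mem_product.2 ⟨ha, ha⟩, rfl⟩, rfl⟩
  have h6 : ((((F ×ˢ F).filter fun p => forb p.1 p.2).card : ℕ) : ℝ) ≤ Δ * F.card := by
    have e : ((F ×ˢ F).filter fun p => forb p.1 p.2).card =
        ∑ a ∈ F, (F.filter fun b => forb a b).card := by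
      rw [Finset.card_filter, Finset.sum_product]
      exact Finset.sum_congr rfl fun a _ => (Finset.card_filter _ _).symm
    rw [e, Nat.cast_sum]
    refine (Finset.sum_le_sum fun a ha => ?_).trans ?_ (b := ∑ _a ∈ F, Δ)
    · convert hforb a ha
    · rw [Finset.sum_const, nsmul_eq_mul, mul_comm]
  have h7 := card_not_pairOK_le F Zp
  have h8 := card_not_pairOK_le F Zm
  have h9 : ((((F ×ˢ F) \ adm F forb Zp Zm).card : ℕ) : ℝ) ≤
      ((F.card + ((F ×ˢ F).filter fun p => forb p.1 p.2).card +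
        (((F ×ˢ F).filter fun p => ¬ PairOK Zp p.1 p.2).card +
        ((F ×ˢ F).filter fun p => ¬ PairOK Zm p.1 p.2).card) : ℕ) : ℝ) := by
    rw [← h5]
    exact_mod_cast h1.trans (h2.trans (add_le_add h3 h4))
  push_cast at h9
  linarith

/-! ### Selection -/

/-- a weighted average selects an element -/
theorem exists_le_of_weighted {α : Type*} {A : Finset α} {om Φ : α → ℝ} {c : ℝ}
    (hom : ∀ p ∈ A, 0 ≤ om p) (hpos : 0 < ∑ p ∈ A, om p)
    (h : ∑ p ∈ A, om p * Φ p ≤ c * ∑ p ∈ A, om p) : ∃ p ∈ A, 0 < om p ∧ Φ p ≤ c := by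
  by_contra hcon
  push Not at hcon
  have h1 : ∀ p ∈ A, om p * c ≤ om p * Φ p := by
    intro p hp
    rcases (hom p hp).eq_or_lt with h0 | h0
    · rw [← h0]; simp
    · exact mul_le_mul_of_nonneg_left (hcon p hp h0).le h0.le
  obtain ⟨q, hq, hq0⟩ : ∃ q ∈ A, 0 < om q := by
    by_contra h0
    push Not at h0
    exact absurd (Finset.sum_nonpos h0) (not_le.2 hpos)
  have h2 : ∑ p ∈ A, om p * c < ∑ p ∈ A, om p * Φ p :=
    Finset.sum_lt_sum h1 ⟨q, hq, mul_lt_mul_of_pos_left (hcon q hq hq0) hq0⟩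
  rw [← Finset.sum_mul] at h2
  linarith [mul_comm c (∑ p ∈ A, om p)]

/-- one-sided square -/
theorem posPart_sq_add_le (x e : ℝ) :
    max (x + e) 0 ^ 2 ≤ max x 0 ^ 2 + 2 * max x 0 * e + e ^ 2 := by
  rcases le_total x 0 with h | h
  · rw [max_eq_right h]
    rcases le_total (x + e) 0 with h2 | h2
    · rw [max_eq_right h2]; nlinarith [sq_nonneg e]
    · rw [max_eq_left h2]; nlinarith
  · rw [max_eq_left h]
    rcases le_total (x + e) 0 with h2 | h2
    · rw [max_eq_right h2]; nlinarith [sq_nonneg (x + e)]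
    · rw [max_eq_left h2]; nlinarith

end Vale.Agent.P049.TS
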